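import Vale.Agent.P011.D4T.H493.Conn

/-!
Singular elements of the cyclic composition attached to an octonion algebra: existence of
neighbours.
-/

namespace Vale.Agent.P011.D4T

open Vale.Agent.P011.MPQ Vale.Agent.P011.D4 Vale.Agent.P011.D4.Oct

section orth

variable {F : Type} [Field F] [NeZero (2 : F)] {a b c : Fˣ}

/-- The polar form, as a bilinear form. -/
def bilB (a b c : Fˣ) : LinearMap.BilinForm F (Oct a b c) :=
  LinearMap.mk₂ F bil bil_add_left (fun t x y => bil_smul_left t x y) bil_add_right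
    (fun t x y => bil_smul_right t x y)

theorem exists_orth (v p : Oct a b c) : ∃ x : Oct a b c, bil x v = 0 ∧ bil x p = 0 ∧
    Oct.norm x ≠ 0 := by
  by_contra hne
  push Not at hne
  set B := bilB a b c with hB
  have hBa : ∀ x y, B x y = bil x y := fun _ _ => rfl
  have hs : ∀ x y, B x y = B y x := fun x y => by rw [hBa, hBa, bil_comm]
  have hrefl : B.IsRefl := fun x y h => by rw [hs]; exact h
  have hnd : B.Nondegenerate := by
    refine ⟨fun x hx => ?_, fun x hx => ?_⟩
    · exact eq_zero_of_bil fun y => hx y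
    · exact eq_zero_of_bil fun y => by rw [bil_comm]; exact hx y
  set W := Submodule.span F (Set.range ![v, p]) with hW
  have h1 : Module.finrank F W ≤ 2 := by
    have h2 := finrank_range_le_card (R := F) ![v, p]
    rwa [Fintype.card_fin] at h2
  have h2 := LinearMap.BilinForm.finrank_orthogonal hnd W
  have h3 := LinearMap.BilinForm.finrank_orthogonal hnd (B.orthogonal W)
  rw [finrank_oct] at h2 h3
  have h4 : B.orthogonal W ≤ B.orthogonal (B.orthogonal W) := by
    intro x hx y hy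
    have hn : ∀ z ∈ B.orthogonal W, Oct.norm z = 0 := by
      intro z hz
      apply hne
      · exact hrefl _ _ (hz v (Submodule.subset_span ⟨0, rfl⟩))
      · exact hrefl _ _ (hz p (Submodule.subset_span ⟨1, rfl⟩))
    have h5 := hn _ ((B.orthogonal W).add_mem hx hy)
    rw [norm_add, hn _ hx, hn _ hy, zero_add, zero_add] at h5
    change bil y x = 0
    rw [bil_comm]
    exact h5
  have h5 := Submodule.finrank_mono h4
  omega

end orth

section nbr

variable {k L : Type} [Field k] [Field L] [Algebra k L] {a b c : kˣ} {ρ : L ≃ₐ[k] L}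

/-- The elements orthogonal to `w` which are annihilated by `v` on both sides. -/
def InU (ρ : L ≃ₐ[k] L) (v w u : OctL L a b c) : Prop := Nb ρ v u ∧ Oct.bil u w = 0

theorem InU.smul {v w u : OctL L a b c} (h : InU ρ v w u) (t : L) : InU ρ v w (t • u) :=
  ⟨h.1.smul t, by rw [bil_smul_left, h.2, mul_zero]⟩

theorem InU.add {v w u u' : OctL L a b c} (h : InU ρ v w u) (h' : InU ρ v w u') :
    InU ρ v w (u + u') :=
  ⟨h.1.add h'.1, by rw [bil_add_left, h.2, h'.2, add_zero]⟩

variable (hρ : ∀ m, ρ (ρ (ρ m)) = m) {v w : OctL L a b c} (hv : Pt ρ v) (hw : Pt ρ w)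
  (h1 : Oct.bil v w = 1)

include hρ hv hw

theorem bil_v_p : Oct.bil v (tri ρ w v) = 0 := by
  rw [bil_comm, bil_tri hρ, hv.2, bil_zero_left, map_zero]

theorem InU.bil_p {u : OctL L a b c} (hu : InU ρ v w u) : Oct.bil u (tri ρ w v) = 0 := by
  rw [bil_comm, bil_tri hρ, hu.1.1, bil_zero_left, map_zero]

include h1

theorem InU.p_mul {u : OctL L a b c} (hu : InU ρ v w u) : tri ρ (tri ρ w v) u = 0 := by
  have h2 := polar1 hρ w v u
  rwa [hu.1.2, tri_zero_left, add_zero, bil_comm, hu.2, map_zero, map_zero, zero_smul] at h2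

theorem w_mul_p : tri ρ w (tri ρ w v) = w := by
  have h2 := polar2 hρ w w v
  rwa [hw.2, tri_zero_right, add_zero, bil_comm, h1, map_one, one_smul] at h2

theorem p_mul_v : tri ρ (tri ρ w v) v = v := by
  have h2 := polar1 hρ w v v
  rwa [hv.2, tri_zero_left, add_zero, bil_comm, h1, map_one, map_one, one_smul] at h2

theorem p_mul_p : tri ρ (tri ρ w v) (tri ρ w v) = -tri ρ v w := by
  have h2 := polar2 hρ (tri ρ w v) w v
  rw [w_mul_p hρ hv hw h1, bil_comm, bil_v_p hρ hv hw, map_zero, zero_smul] at h2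
  exact eq_neg_of_add_eq_zero_left h2

/-- The semilinear map. -/
theorem InU.theta {u : OctL L a b c} (hu : InU ρ v w u) : InU ρ v w (tri ρ u (tri ρ w v)) := by
  refine ⟨⟨?_, ?_⟩, ?_⟩
  · have h2 := polar2 hρ v u (tri ρ w v)
    rwa [hu.1.2, tri_zero_right, add_zero, bil_v_p hρ hv hw, map_zero, zero_smul] at h2
  · have h2 := polar1 hρ u (tri ρ w v) v
    rwa [tri_tri' hρ, hv.norm hρ, map_zero, zero_smul, tri_zero_left, add_zero, bil_comm,
      hu.1.bil hρ hv, map_zero, map_zero, zero_smul] at h2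
  · rw [bil_tri hρ, Orb.tri_tri hρ, hw.norm hρ, map_zero, map_zero, zero_smul, bil_zero_left,
      map_zero]

theorem InU.theta3 {u : OctL L a b c} (hu : InU ρ v w u) :
    tri ρ (tri ρ (tri ρ u (tri ρ w v)) (tri ρ w v)) (tri ρ w v) = u := by
  set p := tri ρ w v with hp
  have h2 := polar1 hρ u p p
  rw [hu.bil_p hρ hv hw, map_zero, map_zero, zero_smul] at h2
  have h3 : tri ρ (tri ρ u p) p = -tri ρ (tri ρ p p) u := eq_neg_of_add_eq_zero_left h2
  have h4 := polar1 hρ (tri ρ p p) u p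
  rw [hu.p_mul hρ hv hw h1, tri_zero_left, add_zero] at h4
  have h5 : Oct.bil (tri ρ p p) p = -1 := by
    rw [hp, p_mul_p hρ hv hw h1, bil_neg_left, ← hp, bil_tri hρ, w_mul_p hρ hv hw h1, bil_comm,
      h1, map_one]
  rw [h5, map_neg, map_neg, map_one, map_one, neg_one_smul] at h4
  rw [h3, tri_neg_left, h4, neg_neg]

/-- The fixed elements are singular. -/
theorem InU.sing [NeZero (2 : L)] {u : OctL L a b c} (hu : InU ρ v w u)
    (hf : tri ρ u (tri ρ w v) = u) : tri ρ u u = 0 := by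
  set p := tri ρ w v with hp
  set y := tri ρ u u with hy
  have h2 : y = -tri ρ p y := by
    have h3 := polar2 hρ u u p
    rw [hf, hu.bil_p hρ hv hw, map_zero, zero_smul] at h3
    exact eq_neg_of_add_eq_zero_left h3
  have h3 : Nb ρ v y := by
    refine ⟨?_, ?_⟩
    · have h4 := polar2 hρ v u u
      rwa [hu.1.2, tri_zero_right, add_zero, hu.1.bil hρ hv, map_zero, zero_smul] at h4
    · have h4 := polar1 hρ u u v
      rwa [hu.1.1, tri_zero_left, add_zero, bil_comm, hu.1.bil hρ hv, map_zero, map_zero,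
        zero_smul] at h4
  set s := Oct.bil y w with hs
  have h4 : InU ρ v w (y + (-s) • v) := by
    refine ⟨h3.add (hv.nb_self.smul _), ?_⟩
    rw [bil_add_left, bil_smul_left, h1, mul_one, add_neg_cancel]
  have h5 := h4.p_mul hρ hv hw h1
  rw [tri_add_right, tri_smul_right, p_mul_v hρ hv hw h1, ← hp] at h5
  have h6 : tri ρ p y = ρ (ρ s) • v := by
    have h7 := eq_neg_of_add_eq_zero_left h5
    rw [h7, map_neg, map_neg, neg_smul, neg_neg]
  rw [h6] at h2
  have h7 : s = -ρ (ρ s) := by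
    have h8 := congrArg (fun z => Oct.bil z w) h2
    simp only [bil_neg_left, bil_smul_left, h1, mul_one] at h8
    exact h8
  have h8 : s = 0 := by
    have h9 : ρ (ρ s) = -s := by rw [eq_neg_iff_add_eq_zero, add_comm, ← eq_neg_iff_add_eq_zero]; exact h7
    have h10 : ρ s = -ρ (ρ (ρ s)) := by rw [h9, map_neg, neg_neg]
    rw [hρ] at h10
    have h11 : ρ (ρ s) = s := by rw [h10, map_neg, h10, neg_neg]
    rw [h11] at h9
    have h12 : (2 : L) * s = 0 := by linear_combination h9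
    exact (mul_eq_zero.1 h12).resolve_left (NeZero.ne _)
  rw [h2, h8, map_zero, map_zero, zero_smul, neg_zero]

/-- A nonzero element. -/
theorem exists_inU [NeZero (2 : L)] : ∃ u, u ≠ 0 ∧ InU ρ v w u := by
  obtain ⟨x, hx1, hx2, hx3⟩ := exists_orth v (tri ρ w v)
  refine ⟨tri ρ v x, ?_, ⟨?_, ?_⟩, ?_⟩
  · intro h0
    have h2 := tri_tri' hρ x v
    rw [h0, tri_zero_right] at h2
    rcases smul_eq_zero.1 h2.symm with h3 | h3
    · exact hx3 ((map_eq_zero_iff ρ ρ.injective).1 h3)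
    · exact hv.1 h3
  · have h2 := polar2 hρ v v x
    rwa [hv.2, tri_zero_right, add_zero, bil_comm, hx1, map_zero, zero_smul] at h2
  · rw [Orb.tri_tri hρ, hv.norm hρ, map_zero, map_zero, zero_smul]
  · rw [bil_tri' hρ, bil_comm, hx2, map_zero, map_zero]

/-- **Neighbours exist** (normalised form). -/
theorem exists_nb' [NeZero (2 : L)] (hne : ρ ≠ 1) :
    ∃ u, u ≠ 0 ∧ InU ρ v w u ∧ tri ρ u (tri ρ w v) = u := by
  obtain ⟨u, hu0, hu⟩ := exists_inU hρ hv hw h1
  obtain ⟨s, hs⟩ : ∃ s : L, ρ s ≠ s := by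
    by_contra h
    push Not at h
    exact hne (AlgEquiv.ext h)
  set p := tri ρ w v with hp
  have hu1 := hu.theta hρ hv hw h1
  have hu2 := hu1.theta hρ hv hw h1
  have hu3 := hu.theta3 hρ hv hw h1
  rw [← hp] at hu1 hu2 hu3
  set F : L → OctL L a b c := fun t => t • u + ρ t • tri ρ u p + ρ (ρ t) • tri ρ (tri ρ u p) p
    with hF
  obtain ⟨t, ht⟩ : ∃ t, F t ≠ 0 := by
    by_contra hall
    push Not at hall
    have e1 : ∀ t, F (s * t) - ρ (ρ s) • F t =
        ((s - ρ (ρ s)) * t) • u + ((ρ s - ρ (ρ s)) * ρ t) • tri ρ u p := by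
      intro t
      simp only [hF, map_mul]
      module
    have e2 : ∀ t, (F (s * (s * t)) - ρ (ρ s) • F (s * t)) - ρ s • (F (s * t) - ρ (ρ s) • F t) =
        ((s - ρ (ρ s)) * (s - ρ s) * t) • u := by
      intro t
      rw [e1, e1, map_mul]
      module
    have e3 := e2 1
    rw [hall, hall, hall, smul_zero, sub_zero, smul_zero, sub_zero, mul_one] at e3
    rcases smul_eq_zero.1 e3.symm with e4 | e4
    · rcases mul_eq_zero.1 e4 with e5 | e5
      · have e6 : s = ρ (ρ s) := sub_eq_zero.1 e5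
        apply hs
        have e7 : ρ s = ρ (ρ (ρ s)) := congrArg ρ e6
        rw [hρ] at e7
        exact e7
      · exact hs (sub_eq_zero.1 e5).symm
    · exact hu0 e4
  refine ⟨F t, ht, ((hu.smul _).add (hu1.smul _)).add (hu2.smul _), ?_⟩
  simp only [hF, tri_add_left, tri_smul_left, hu3, hρ]
  abel

end nbr

section nbr2

variable {k L : Type} [Field k] [Field L] [NeZero (2 : L)] [Algebra k L] {a b c : kˣ}
  {ρ : L ≃ₐ[k] L}

/-- **Neighbours exist.** -/
theorem exists_nb (hρ : ∀ m, ρ (ρ (ρ m)) = m) (hne : ρ ≠ 1) {v w : OctL L a b c} (hv : Pt ρ v)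
    (hw : Pt ρ w) (hvw : Oct.bil v w ≠ 0) :
    ∃ u, Pt ρ u ∧ Nb ρ v u ∧ Oct.bil u w = 0 ∧ ∀ t : L, u ≠ t • v := by
  have hw' : Pt ρ ((Oct.bil v w)⁻¹ • w) := hw.smul (inv_ne_zero hvw)
  have h1 : Oct.bil v ((Oct.bil v w)⁻¹ • w) = 1 := by
    rw [bil_smul_right, inv_mul_cancel₀ hvw]
  obtain ⟨u, hu0, hu, hf⟩ := exists_nb' hρ hv hw' h1 hne
  have h2 := hu.sing hρ hv hw' h1 hf
  have h3 : Oct.bil u w = 0 := by
    have h4 := hu.2
    rw [bil_smul_right] at h4
    exact (mul_eq_zero.1 h4).resolve_left (inv_ne_zero hvw)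
  refine ⟨u, ⟨hu0, h2⟩, hu.1, h3, fun t ht => ?_⟩
  rw [ht, bil_smul_left] at h3
  have h5 : t = 0 := (mul_eq_zero.1 h3).resolve_right hvw
  rw [h5, zero_smul] at ht
  exact hu0 ht

/-- **Connectedness.** If every singular element has an opposite one, then any two singular
elements are joined by a chain of length three. -/
theorem connected (hρ : ∀ m, ρ (ρ (ρ m)) = m) (hne : ρ ≠ 1) {v w : OctL L a b c} (hv : Pt ρ v)
    (hw : Pt ρ w) {v' : OctL L a b c} (hv' : Pt ρ v') (hvv' : Oct.bil v v' ≠ 0) :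
    ∃ u z, Pt ρ u ∧ Pt ρ z ∧ Nb ρ v u ∧ Nb ρ u z ∧ Nb ρ z w := by
  obtain ⟨u, h1, h2, -, h3⟩ := exists_nb hρ hne hv hv' hvv'
  exact path hρ hv hw ⟨u, h1, h2, h3⟩

end nbr2

end Vale.Agent.P011.D4T
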