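import Vale.Agent.P011.D4.Orbit

/-!
Singular elements of the cyclic composition attached to an octonion algebra: any two of them are
joined by a chain of length three.
-/

namespace Vale.Agent.P011.D4T

open Vale.Agent.P011.MPQ Vale.Agent.P011.D4 Vale.Agent.P011.D4.Oct

section star

variable {k L : Type} [Field k] [Field L] [Algebra k L] {a b c : kˣ} {ρ : L ≃ₐ[k] L}

theorem tri_add_left (x y z : OctL L a b c) : tri ρ (x + y) z = tri ρ x z + tri ρ y z := by
  simp only [tri, star_add, omap_add, add_mul]

theorem tri_add_right (x y z : OctL L a b c) : tri ρ x (y + z) = tri ρ x y + tri ρ x z := by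
  simp only [tri, star_add, omap_add, mul_add]

theorem tri_smul_left (t : L) (x y : OctL L a b c) : tri ρ (t • x) y = ρ t • tri ρ x y := by
  simp only [tri, star_smul_oct, omap_smul, smul_mul_oct]

theorem tri_smul_right (t : L) (x y : OctL L a b c) :
    tri ρ x (t • y) = ρ (ρ t) • tri ρ x y := by
  simp only [tri, star_smul_oct, omap_smul, mul_smul_oct]

@[simp] theorem tri_zero_left (x : OctL L a b c) : tri ρ 0 x = 0 := by
  have h := tri_smul_left (ρ := ρ) (0 : L) x x
  rwa [zero_smul, map_zero, zero_smul] at h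

@[simp] theorem tri_zero_right (x : OctL L a b c) : tri ρ x 0 = 0 := by
  have h := tri_smul_right (ρ := ρ) (0 : L) x x
  rwa [zero_smul, map_zero, map_zero, zero_smul] at h

theorem tri_neg_left (x y : OctL L a b c) : tri ρ (-x) y = -tri ρ x y := by
  have h := tri_smul_left (ρ := ρ) (-1 : L) x y
  rwa [neg_one_smul, map_neg, map_one, neg_one_smul] at h

theorem tri_neg_right (x y : OctL L a b c) : tri ρ x (-y) = -tri ρ x y := by
  have h := tri_smul_right (ρ := ρ) (-1 : L) x y
  rwa [neg_one_smul, map_neg, map_one, map_neg, map_one, neg_one_smul] at h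

theorem tri_sub_left (x y z : OctL L a b c) : tri ρ (x - y) z = tri ρ x z - tri ρ y z := by
  rw [sub_eq_add_neg, tri_add_left, tri_neg_left, sub_eq_add_neg]

theorem tri_sub_right (x y z : OctL L a b c) : tri ρ x (y - z) = tri ρ x y - tri ρ x z := by
  rw [sub_eq_add_neg, tri_add_right, tri_neg_right, sub_eq_add_neg]

theorem bil_omap (σ : L ≃ₐ[k] L) (x y : OctL L a b c) :
    bil (omap σ x) (omap σ y) = σ (bil x y) := by
  rw [bil, bil, ← omap_add, Orb.norm_omap, Orb.norm_omap, Orb.norm_omap, map_sub, map_sub]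

variable (hρ : ∀ m, ρ (ρ (ρ m)) = m)

include hρ

theorem tri_tri' (x y : OctL L a b c) : tri ρ x (tri ρ y x) = ρ (norm x) • y := by
  rw [tri, tri, star_mul, omap_mul, omap_mul, ← omap_star, ← omap_star, ← omap_star, star_star,
    star_star, Orb.omap_cube hρ, Orb.omap_cube hρ, omap_star, star_mul_mul, Orb.norm_omap]

theorem polar1 (x y z : OctL L a b c) :
    tri ρ (tri ρ x y) z + tri ρ (tri ρ z y) x = ρ (ρ (bil x z)) • y := by
  have h := Orb.tri_tri hρ (x + z) y
  rw [tri_add_left, tri_add_left, tri_add_right, tri_add_right, Orb.tri_tri hρ,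
    Orb.tri_tri hρ, norm_add, map_add, map_add, map_add, map_add, add_smul, add_smul] at h
  rw [← add_left_inj (ρ (ρ (norm x)) • y + ρ (ρ (norm z)) • y)]
  rw [add_comm (ρ (ρ (bil x z)) • y), ← h]
  abel

theorem polar2 (x y z : OctL L a b c) :
    tri ρ x (tri ρ y z) + tri ρ z (tri ρ y x) = ρ (bil x z) • y := by
  have h := tri_tri' hρ (x + z) y
  rw [tri_add_right y, tri_add_left, tri_add_right, tri_add_right, tri_tri' hρ,
    tri_tri' hρ, norm_add, map_add, map_add, add_smul, add_smul] at h
  rw [← add_left_inj (ρ (norm x) • y + ρ (norm z) • y)]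
  rw [add_comm (ρ (bil x z) • y), ← h]
  abel

theorem bil_tri (x y z : OctL L a b c) : bil (tri ρ x y) z = ρ (bil (tri ρ y z) x) := by
  rw [← bil_omap, tri, tri, bil_mul_left, ← omap_star, star_star, omap_mul, bil_mul_left',
    Orb.omap_cube hρ, star_star, omap_star, omap_star]

theorem bil_tri' (x y z : OctL L a b c) : bil (tri ρ x y) z = ρ (ρ (bil (tri ρ z x) y)) := by
  rw [bil_tri hρ, bil_tri hρ]

end star

end Vale.Agent.P011.D4T
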