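import Vale.Agent.P011.D4T.H493.Star

/-!
Singular elements of the cyclic composition attached to an octonion algebra: neighbours, chains.
-/

namespace Vale.Agent.P011.D4T

open Vale.Agent.P011.MPQ Vale.Agent.P011.D4 Vale.Agent.P011.D4.Oct

section conn

variable {k L : Type} [Field k] [Field L] [Algebra k L] {a b c : kˣ} {ρ : L ≃ₐ[k] L}

/-- Singular elements. -/
def Pt (ρ : L ≃ₐ[k] L) (v : OctL L a b c) : Prop := v ≠ 0 ∧ tri ρ v v = 0

/-- Neighbours. -/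
def Nb (ρ : L ≃ₐ[k] L) (v w : OctL L a b c) : Prop := tri ρ v w = 0 ∧ tri ρ w v = 0

theorem Nb.symm {v w : OctL L a b c} (h : Nb ρ v w) : Nb ρ w v := ⟨h.2, h.1⟩

theorem Pt.nb_self {v : OctL L a b c} (h : Pt ρ v) : Nb ρ v v := ⟨h.2, h.2⟩

theorem Pt.smul {v : OctL L a b c} (h : Pt ρ v) {t : L} (ht : t ≠ 0) : Pt ρ (t • v) := by
  refine ⟨smul_ne_zero ht h.1, ?_⟩
  rw [tri_smul_left, tri_smul_right, h.2, smul_zero, smul_zero]

theorem Nb.smul {v w : OctL L a b c} (h : Nb ρ v w) (t : L) : Nb ρ v (t • w) := by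
  refine ⟨?_, ?_⟩
  · rw [tri_smul_right, h.1, smul_zero]
  · rw [tri_smul_left, h.2, smul_zero]

theorem Nb.add {v w u : OctL L a b c} (h : Nb ρ v w) (h' : Nb ρ v u) : Nb ρ v (w + u) := by
  refine ⟨?_, ?_⟩
  · rw [tri_add_right, h.1, h'.1, add_zero]
  · rw [tri_add_left, h.2, h'.2, add_zero]

variable (hρ : ∀ m, ρ (ρ (ρ m)) = m)

include hρ

theorem Pt.norm {v : OctL L a b c} (h : Pt ρ v) : Oct.norm v = 0 := by
  have h1 := Orb.tri_tri hρ v v
  rw [h.2, tri_zero_left] at h1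
  rcases smul_eq_zero.1 h1.symm with h2 | h2
  · exact (map_eq_zero_iff ρ ρ.injective).1 ((map_eq_zero_iff ρ ρ.injective).1 h2)
  · exact absurd h2 h.1

theorem Nb.bil {v u : OctL L a b c} (hv : Pt ρ v) (h : Nb ρ v u) : Oct.bil v u = 0 := by
  have h1 := polar2 hρ v v u
  rw [h.1, tri_zero_right, hv.2, tri_zero_right, add_zero] at h1
  rcases smul_eq_zero.1 h1.symm with h2 | h2
  · exact (map_eq_zero_iff ρ ρ.injective).1 h2
  · exact absurd h2 hv.1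

/-- The middle element of a special pair. -/
theorem mid {v w : OctL L a b c} (hv : Pt ρ v) (hw : Pt ρ w) (h : Oct.bil v w = 0) :
    tri ρ (tri ρ v w) (tri ρ v w) = 0 ∧ Nb ρ v (tri ρ v w) ∧ Nb ρ (tri ρ v w) w := by
  have h1 : tri ρ v (tri ρ v w) = 0 := by
    have h2 := polar2 hρ v v w
    rwa [hv.2, tri_zero_right, add_zero, h, map_zero, zero_smul] at h2
  have h2 : tri ρ (tri ρ v w) v = 0 := by
    rw [Orb.tri_tri hρ, hv.norm hρ, map_zero, map_zero, zero_smul]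
  have h3 : tri ρ w (tri ρ v w) = 0 := by
    rw [tri_tri' hρ, hw.norm hρ, map_zero, zero_smul]
  have h4 : tri ρ (tri ρ v w) w = 0 := by
    have h5 := polar1 hρ v w w
    rwa [hw.2, tri_zero_left, add_zero, h, map_zero, map_zero, zero_smul] at h5
  refine ⟨?_, ⟨h1, h2⟩, ⟨h4, h3⟩⟩
  have h5 := polar2 hρ (tri ρ v w) v w
  have h6 : Oct.bil (tri ρ v w) w = 0 := by
    rw [bil_tri hρ, hw.2, bil_zero_left, map_zero]
  rwa [h2 |> fun _ => h1, tri_zero_right, add_zero, h6, map_zero, zero_smul] at h5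

theorem path_aux {v w : OctL L a b c} (hv : Pt ρ v) (hw : Pt ρ w) (h : Oct.bil v w = 0) :
    ∃ z, Pt ρ z ∧ Nb ρ v z ∧ Nb ρ z w := by
  by_cases h1 : tri ρ v w = 0
  · by_cases h2 : tri ρ w v = 0
    · exact ⟨w, hw, ⟨h1, h2⟩, hw.nb_self⟩
    · have h3 := mid hρ hw hv (by rw [bil_comm]; exact h)
      exact ⟨tri ρ w v, ⟨h2, h3.1⟩, h3.2.2.symm, h3.2.1.symm⟩
  · have h3 := mid hρ hv hw h
    exact ⟨tri ρ v w, ⟨h1, h3.1⟩, h3.2.1, h3.2.2⟩

/-- **Chains of length three.** -/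
theorem path {v w : OctL L a b c} (hv : Pt ρ v) (hw : Pt ρ w)
    (hn : ∃ u, Pt ρ u ∧ Nb ρ v u ∧ ∀ t : L, u ≠ t • v) :
    ∃ u z, Pt ρ u ∧ Pt ρ z ∧ Nb ρ v u ∧ Nb ρ u z ∧ Nb ρ z w := by
  by_cases h : Oct.bil v w = 0
  · obtain ⟨z, hz, h1, h2⟩ := path_aux hρ hv hw h
    exact ⟨v, z, hv, hz, hv.nb_self, h1, h2⟩
  · obtain ⟨u, hu, h1, h2⟩ := hn
    set t : L := -(Oct.bil u w / Oct.bil v w) with ht
    have h3 : Nb ρ v (u + t • v) := h1.add (hv.nb_self.smul t)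
    have h4 : Nb ρ u (u + t • v) := hu.nb_self.add (h1.symm.smul t)
    have h5 : tri ρ (u + t • v) (u + t • v) = 0 := by
      rw [tri_add_left, tri_smul_left, h4.1, h3.1, smul_zero, add_zero]
    have h6 : u + t • v ≠ 0 := by
      intro h0
      apply h2 (-t)
      rw [neg_smul]
      exact eq_neg_of_add_eq_zero_left h0
    have h7 : Oct.bil (u + t • v) w = 0 := by
      rw [bil_add_left, bil_smul_left, ht]
      field_simp
      ring
    obtain ⟨z, hz, h8, h9⟩ := path_aux hρ ⟨h6, h5⟩ hw h7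
    exact ⟨u + t • v, z, ⟨h6, h5⟩, hz, h3, h8, h9⟩

end conn

end Vale.Agent.P011.D4T
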